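import Mathlib

/-! P033: circulant Hadamard matrices and concatenations of signed copies of a block. -/

namespace Vale.Agent.P033h25

open Finset

theorem sum_shift (N : ℕ) (g : ℕ → ℤ) (hg : ∀ x, g (x + N) = g x) (t : ℕ) :
    ∑ x ∈ range N, g (x + t) = ∑ x ∈ range N, g x := by
  induction t with
  | zero => simp
  | succ t ih =>
    rw [← ih]
    have h1 := Finset.sum_range_succ (fun x => g (x + t)) N
    have h2 := Finset.sum_range_succ' (fun x => g (x + t)) N
    rw [h1] at h2
    have h3 : g (N + t) = g (0 + t) := by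
      rw [zero_add, add_comm, hg]
    have h4 : ∑ x ∈ range N, g (x + (t + 1)) = ∑ x ∈ range N, g (x + 1 + t) :=
      Finset.sum_congr rfl fun x _ => by
        congr 1
        ring
    rw [h4]
    linarith

theorem sum_blocks (m n : ℕ) (g : ℕ → ℤ) :
    ∑ x ∈ range (m * n), g x = ∑ j ∈ range n, ∑ i ∈ range m, g (m * j + i) := by
  induction n with
  | zero => simp
  | succ n ih =>
    rw [Nat.mul_succ, Finset.sum_range_add, ih, Finset.sum_range_succ]

theorem sign_mul {a b : ℤ} (ha : a = 1 ∨ a = -1) (hb : b = 1 ∨ b = -1) :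
    a * b = 1 ∨ a * b = -1 := by
  rcases ha with rfl | rfl <;> rcases hb with rfl | rfl <;> simp

theorem abs_diff {a b c d : ℤ} (ha : a = 1 ∨ a = -1) (hb : b = 1 ∨ b = -1)
    (hc : c = 1 ∨ c = -1) (hd : d = 1 ∨ d = -1) :
    |a * b - c * d| ≤ |a - c| + |b - d| := by
  rcases ha with rfl | rfl <;> rcases hb with rfl | rfl <;> rcases hc with rfl | rfl <;>
    rcases hd with rfl | rfl <;> norm_num

section

variable (m n : ℕ) (b c : ℕ → ℤ)

/-- the periodic row made of signed copies of the block `b` -/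
def row (x : ℕ) : ℤ := b (x % m) * c (x / m % n)

variable {m n b c}

theorem row_per (hm : 0 < m) (x : ℕ) : row m n b c (x + m * n) = row m n b c x := by
  unfold row
  rw [Nat.add_mul_mod_self_left, Nat.add_mul_div_left _ _ hm, Nat.add_mod_right]

theorem row_block (hm : 0 < m) (i j : ℕ) (hi : i < m) :
    row m n b c (m * j + i) = b i * c (j % n) := by
  unfold row
  rw [Nat.mul_add_mod, Nat.mod_eq_of_lt hi, Nat.mul_add_div hm, Nat.div_eq_of_lt hi, add_zero]

theorem row_sign (hb : ∀ i, b i = 1 ∨ b i = -1) (hc : ∀ i, c i = 1 ∨ c i = -1) (x : ℕ) :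
    row m n b c x = 1 ∨ row m n b c x = -1 := sign_mul (hb _) (hc _)

theorem sq_one {a : ℤ} (ha : a = 1 ∨ a = -1) : a * a = 1 := by
  rcases ha with rfl | rfl <;> norm_num

/-- correlation at the shift `m` -/
theorem corr_m (hm : 0 < m) (hb : ∀ i, b i = 1 ∨ b i = -1) :
    ∑ x ∈ range (m * n), row m n b c x * row m n b c (x + m) =
      m * ∑ j ∈ range n, c (j % n) * c ((j + 1) % n) := by
  rw [sum_blocks, Finset.mul_sum]
  refine Finset.sum_congr rfl fun j _ => ?_
  have h1 : ∀ i ∈ range m, row m n b c (m * j + i) * row m n b c (m * j + i + m) =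
      c (j % n) * c ((j + 1) % n) := by
    intro i hi
    rw [Finset.mem_range] at hi
    have h2 : m * j + i + m = m * (j + 1) + i := by ring
    rw [h2, row_block hm i j hi, row_block hm i (j + 1) hi]
    calc b i * c (j % n) * (b i * c ((j + 1) % n)) = (b i * b i) * (c (j % n) * c ((j + 1) % n)) := by
          ring
      _ = _ := by rw [sq_one (hb i), one_mul]
  rw [Finset.sum_congr rfl h1]
  simp

/-- correlation at the shift `m - 1` -/
theorem corr_m1 {k : ℕ} (hc : ∀ i, c i = 1 ∨ c i = -1) :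
    ∑ x ∈ range ((k + 1) * n), row (k + 1) n b c x * row (k + 1) n b c (x + k) =
      n * (b 0 * b k) + (∑ i ∈ range k, b (i + 1) * b i) *
        ∑ j ∈ range n, c (j % n) * c ((j + 1) % n) := by
  rw [sum_blocks, Finset.mul_sum]
  have h0 : ∀ j ∈ range n, ∑ i ∈ range (k + 1),
      row (k + 1) n b c ((k + 1) * j + i) * row (k + 1) n b c ((k + 1) * j + i + k) =
      b 0 * b k + (∑ i ∈ range k, b (i + 1) * b i) * (c (j % n) * c ((j + 1) % n)) := by
    intro j _
    rw [Finset.sum_range_succ', add_comm, Finset.sum_mul]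
    congr 1
    · rw [row_block (Nat.succ_pos k) 0 j (Nat.succ_pos k), add_zero,
        row_block (Nat.succ_pos k) k j (Nat.lt_succ_self k)]
      calc b 0 * c (j % n) * (b k * c (j % n)) = (c (j % n) * c (j % n)) * (b 0 * b k) := by ring
        _ = _ := by rw [sq_one (hc _), one_mul]
    · refine Finset.sum_congr rfl fun i hi => ?_
      rw [Finset.mem_range] at hi
      have h2 : (k + 1) * j + (i + 1) + k = (k + 1) * (j + 1) + i := by ring
      rw [h2, row_block (Nat.succ_pos k) (i + 1) j (by omega),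
        row_block (Nat.succ_pos k) i (j + 1) (by omega)]
      ring
  rw [Finset.sum_congr rfl h0, Finset.sum_add_distrib]
  simp

end

/-- the main inequality for periodic integer sequences -/
theorem main_seq (m n : ℕ) (hm : 2 ≤ m) (hn : 2 ≤ n) (b c H : ℕ → ℤ)
    (hb : ∀ i, b i = 1 ∨ b i = -1) (hc : ∀ i, c i = 1 ∨ c i = -1)
    (hH : ∀ i, H i = 1 ∨ H i = -1) (hper : ∀ x, H (x + m * n) = H x)
    (hcorr : ∀ t, 0 < t → t < m * n → ∑ x ∈ range (m * n), H x * H (x + t) = 0) :
    n < 8 * ((range (m * n)).filter (fun x => H x ≠ b (x % m) * c (x / m))).card := by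
  obtain ⟨k, rfl⟩ : ∃ k, m = k + 1 := ⟨m - 1, by omega⟩
  set p := row (k + 1) n b c with hp
  set N := (k + 1) * n with hN
  have hps : ∀ x, p x = 1 ∨ p x = -1 := row_sign hb hc
  set r := ((range N).filter (fun x => H x ≠ b (x % (k + 1)) * c (x / (k + 1)))).card with hr
  have hpx : ∀ x ∈ range N, p x = b (x % (k + 1)) * c (x / (k + 1)) := by
    intro x hx
    rw [Finset.mem_range] at hx
    have : x / (k + 1) < n := Nat.div_lt_of_lt_mul hx
    rw [hp]
    unfold row
    rw [Nat.mod_eq_of_lt this]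
  have hD : ∑ x ∈ range N, |H x - p x| = 2 * r := by
    have h1 : ∀ x ∈ range N, |H x - p x| =
        if H x ≠ b (x % (k + 1)) * c (x / (k + 1)) then 2 else 0 := by
      intro x hx
      rw [← hpx x hx]
      rcases hH x with h | h <;> rcases hps x with h' | h' <;> rw [h, h'] <;> norm_num
    rw [Finset.sum_congr rfl h1, ← Finset.sum_filter, Finset.sum_const, hr]
    simp [mul_comm]
  have hG : ∀ t, ∑ x ∈ range N, |H (x + t) - p (x + t)| = 2 * r := by
    intro t
    rw [← hD]
    refine sum_shift N (fun x => |H x - p x|) (fun x => ?_) t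
    rw [hper, hp, row_per (Nat.succ_pos k)]
  have hP : ∀ t, 0 < t → t < N → |∑ x ∈ range N, p x * p (x + t)| ≤ 4 * r := by
    intro t ht0 ht
    have h1 : ∑ x ∈ range N, p x * p (x + t) =
        - ∑ x ∈ range N, (H x * H (x + t) - p x * p (x + t)) := by
      rw [Finset.sum_sub_distrib, hcorr t ht0 ht]
      ring
    rw [h1, abs_neg]
    calc |∑ x ∈ range N, (H x * H (x + t) - p x * p (x + t))|
        ≤ ∑ x ∈ range N, |H x * H (x + t) - p x * p (x + t)| :=
          Finset.abs_sum_le_sum_abs _ _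
      _ ≤ ∑ x ∈ range N, (|H x - p x| + |H (x + t) - p (x + t)|) :=
          Finset.sum_le_sum fun x _ => abs_diff (hH _) (hH _) (hps _) (hps _)
      _ = 4 * r := by
          rw [Finset.sum_add_distrib, hD, hG]
          ring
  have hN2 : k + 1 < N := by
    rw [hN]
    nlinarith
  have h1 := hP (k + 1) (by omega) hN2
  have h2 := hP k (by omega) (by omega)
  rw [hp, hN, corr_m (Nat.succ_pos k) hb] at h1
  rw [hp, hN, corr_m1 hc] at h2
  set C := ∑ j ∈ range n, c (j % n) * c ((j + 1) % n) with hC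
  set A := ∑ i ∈ range k, b (i + 1) * b i with hA
  have hAk : |A| ≤ k := by
    calc |A| ≤ ∑ i ∈ range k, |b (i + 1) * b i| := Finset.abs_sum_le_sum_abs _ _
      _ = ∑ _i ∈ range k, (1 : ℤ) := by
          refine Finset.sum_congr rfl fun i _ => ?_
          rcases sign_mul (hb (i + 1)) (hb i) with h | h <;> rw [h] <;> norm_num
      _ = k := by simp
  have h3 : |((k + 1 : ℕ) : ℤ) * C| = (k + 1) * |C| := by
    rw [abs_mul]
    push_cast
    rw [abs_of_nonneg (by positivity : (0 : ℤ) ≤ (k : ℤ) + 1)]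
  rw [h3] at h1
  have h4 : |A * C| ≤ k * |C| := by
    rw [abs_mul]
    exact mul_le_mul_of_nonneg_right hAk (abs_nonneg _)
  have h5 : (n : ℤ) ≤ 4 * r + k * |C| := by
    have h6 : |(n : ℤ) * (b 0 * b k)| = n := by
      rcases sign_mul (hb 0) (hb k) with h | h <;> rw [h] <;> simp
    have h7 : |(n : ℤ) * (b 0 * b k)| ≤ |(n : ℤ) * (b 0 * b k) + A * C| + |A * C| := by
      have := abs_sub ((n : ℤ) * (b 0 * b k) + A * C) (A * C)
      rwa [add_sub_cancel_right] at this
    linarith
  have h8 : (0 : ℤ) ≤ |C| := abs_nonneg _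
  have h9 : (n : ℤ) < 8 * r := by
    rcases h8.eq_or_lt with h | h
    · rw [← h] at h5
      have : (2 : ℤ) ≤ n := by exact_mod_cast hn
      linarith
    · nlinarith
  exact_mod_cast h9

theorem sum_zmod (N : ℕ) [NeZero N] (g : ZMod N → ℤ) :
    ∑ x : ZMod N, g x = ∑ x ∈ range N, g (x : ZMod N) := by
  refine (Finset.sum_nbij' (fun x : ℕ => (x : ZMod N)) (fun x => x.val) ?_ ?_ ?_ ?_ ?_).symm
  · intro x _
    exact Finset.mem_univ _
  · intro x _
    exact Finset.mem_range.mpr (ZMod.val_lt x)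
  · intro x hx
    exact ZMod.val_cast_of_lt (Finset.mem_range.mp hx)
  · intro x _
    exact ZMod.natCast_zmod_val x
  · intro x _
    rfl

end Vale.Agent.P033h25
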